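import Vale.Agent.P153.App2.Stm
import Vale.Agent.P153.Wick.Stm
import Vale.Agent.P153.Nu.Stm

/-! P153, module App2: the moment bounds in the form used by the other modules. -/

open Set

namespace Vale.Agent.P153.App2

open App

theorem outm_dm (x : V) (n : ℕ) : Dm (hex x n) := ⟨hex_finite x n, cn_compl_hex x n⟩

theorem outm_bk (n : ℕ) : Bk (free (hex 0 n) 0) (hex 0 n) 2 := ⟨outm_dm 0 n, Or.inl ⟨rfl, rfl⟩⟩

theorem outm_sq {S : Set Cfg} {X Y : Cfg → ℝ} {D t : ℝ} (ht : 0 ≤ t) (e : ∀ H, X H ^ 2 = Y H)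
    (h : Ex S Y ≤ D * t ^ 2) : Ex S X ≤ √D * t := by
  have k := Ex_sq_le S X
  rw [Ex_congr fun H _ => e H] at k
  have := Real.le_sqrt_of_sq_le (k.trans h)
  rwa [Real.sqrt_mul' _ (sq_nonneg t), Real.sqrt_sq ht] at this

theorem outm_four (hl : S_lin) (hs : S_sw) {S : Set Cfg} {U : Set V} {x : V} {N : ℕ}
    {a : V →₀ ℝ} {B : ℝ} (hU : U.Finite) (hS : Sw S U) (hN : 1 ≤ N) (hB : 0 ≤ B)
    (ha : ∀ y, |a y| ≤ 1) (hsup : Sup a (hex x N))
    (h : ∀ ψ, W1 ψ → Sup ψ (hex x N) → M8 U ψ ≤ B * (N : ℝ) ^ 16) :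
    Ex S (fun H => lin a H ^ 4) ≤ √(2 ^ 20 * (B + 9 ^ 8)) * (N : ℝ) ^ 8 := by
  have hN' : (1 : ℝ) ≤ N := by exact_mod_cast hN
  have k := hs.mom S U (hex x N) a (B * (N : ℝ) ^ 16) (9 * (N : ℝ) ^ 2) hU hS (by positivity)
    (by positivity) ha hsup fun ψ h1 h2 =>
      ⟨h ψ h1 h2, (hl.tot_le ψ x N h1 h2).trans (by nlinarith)⟩
  refine outm_sq (Y := fun H => lin a H ^ 8) (by positivity) (fun H => by ring)
    (k.trans (le_of_eq ?_))
  ring

theorem l_mb (hl : S_lin) (hs : S_sw) (ht : S_tw) : Wick.L_mb := by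
  obtain ⟨C, hC, h⟩ := ht 1 one_pos
  refine ⟨√(2 ^ 20 * (C + 9 ^ 8)), fun F S x N a hF hN hx ha => ?_⟩
  refine outm_four hl hs hF.1 (hs.dob F S hF.1) hN hC ha.1 ha.2 fun ψ h1 h2 => ?_
  have := h 0 N x F ψ hN h1 h2 hF (by rwa [pow_zero, one_mul])
  rwa [pow_zero, mul_one] at this

theorem l_m0 (h : S_m0) : Wick.L_m0 := by
  obtain ⟨K, -, h⟩ := h
  exact fun _ => ⟨0, K, fun F S x N _ a hF hN _ _ _ ha h0 =>
    h _ F 1 x N a ⟨hF, Or.inr ⟨S, rfl, rfl⟩⟩ hN ha.1 ha.2 h0⟩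

theorem m4Mu (h : S_m0) : Seal.M4Mu := by
  obtain ⟨K, -, h⟩ := h
  exact ⟨K, fun r hr x => Filter.Eventually.of_forall fun N a h0 h1 h2 =>
    h _ _ 2 x r a (outm_bk N) hr h1 (fun y hy => h2 y (Finsupp.mem_support_iff.2 hy)) h0⟩

theorem m4Dob (hl : S_lin) (hs : S_sw) (hm : S_mom) : Seal.M4Dob := by
  obtain ⟨A, hA, h⟩ := hm
  refine fun L => ⟨√(2 ^ 20 * (A * ((L : ℝ) + 1) ^ 16 + 9 ^ 8)), fun r hr F S a hF h1 h2 => ?_⟩
  have hf : F.Finite := (hex_finite 0 (L * r)).subset hF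
  have hr' : (1 : ℝ) ≤ r := by exact_mod_cast hr
  refine outm_four hl hs hf (hs.dob F S hf) hr (by positivity) h1
    (fun y hy => h2 y (Finsupp.mem_support_iff.2 hy)) fun ψ k1 _ => ?_
  refine (h (L * r) 0 F ψ hF k1).trans ?_
  rw [mul_assoc, ← mul_pow]
  refine mul_le_mul_of_nonneg_left (pow_le_pow_left₀ (by positivity) ?_ 16) hA
  push_cast
  linarith

theorem outm_zero {a : V →₀ ℝ} (h : ∀ x ∈ a.support, x ∈ hex 0 0)
    (h0 : (a.sum fun _ c => c) = 0) : a = 0 := by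
  have k : a.support ⊆ {0} := fun x hx => by
    have := h x hx
    rw [mem_hex, sub_zero, Nat.le_zero, nrm_eq_zero] at this
    exact Finset.mem_singleton.2 this
  rw [Finsupp.support_subset_singleton.1 k] at h0 ⊢
  rw [Finsupp.sum_single_index rfl] at h0
  rw [h0, Finsupp.single_zero]

theorem nu_m2 (h : S_m0) : Nu.M2 := by
  obtain ⟨K, -, h⟩ := h
  refine ⟨√K, fun r a h2 h1 h0 => Filter.Eventually.of_forall fun N => ?_⟩
  rcases Nat.eq_zero_or_pos r with rfl | hr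
  · rw [outm_zero h2 h0]
    exact Ex_le' (by positivity) fun H _ => by simp [lin]
  · have k := h _ _ 2 0 r a (outm_bk N) hr h1 (fun y hy => h2 y (Finsupp.mem_support_iff.2 hy)) h0
    refine outm_sq (Y := fun H => lin a H ^ 4) (by positivity) (fun H => by ring)
      (k.trans (le_of_eq ?_))
    ring

theorem nu_vsub (h : S_pt) : Nu.VSub := by
  obtain ⟨K, hK, h⟩ := h
  refine fun ε hε => ⟨K / (4 * ε) + ε, fun x => Filter.Eventually.of_forall fun N => ?_⟩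
  have k := h _ _ 2 0 x (outm_bk N)
  rw [sub_zero] at k
  have q := Ex_sq_le (free (hex 0 N) 0) fun H => ((H x : ℝ) - H 0) ^ 2
  simp only [← pow_mul] at q
  have n0 : (0 : ℝ) ≤ nrm x := Nat.cast_nonneg _
  have s : √((nrm x : ℝ) + 1) ≤ (nrm x : ℝ) + 1 := Real.sqrt_le_iff.2 ⟨by linarith, by nlinarith⟩
  have e : K = 4 * ε * (K / (4 * ε)) := by field_simp
  have p : 0 ≤ K / (4 * ε) := by positivity
  refine (abs_le_of_sq_le_sq' (q.trans (k.trans ((mul_le_mul_of_nonneg_left s hK).trans ?_)))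
    (by positivity)).2
  generalize K / (4 * ε) = T at e p
  rw [e]
  nlinarith [sq_nonneg (T - ε * (nrm x + 1))]

end Vale.Agent.P153.App2
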