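import Vale.Agent.P153.App.All
import Vale.Agent.P153.App.Var
import Vale.Agent.P153.App2.Hole
import Vale.Agent.P153.App2.Scr
import Vale.Agent.P153.App2.Sw
import Vale.Agent.P153.App2.Peel
import Vale.Agent.P153.App2.Khin
import Vale.Agent.P153.App2.Mom
import Vale.Agent.P153.App2.Grow
import Vale.Agent.P153.App2.Abs4
import Vale.Agent.P153.App2.M0
import Vale.Agent.P153.App2.K3
import Vale.Agent.P153.App2.Naw
import Vale.Agent.P153.App2.Tv
import Vale.Agent.P153.App2.OutM
import Vale.Agent.P153.App2.OutT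

/-! P153, module App2: all outputs. -/

namespace Vale.Agent.P153.App2

open App

theorem sw_all : S_sw := s_sw s_lin

theorem nl_all : S_nl := s_nl gstar_all

theorem bk_all : S_bk := s_bk sw_all mixS_all

theorem peel_all : S_peel := s_peel s_lin s_hole

theorem mom_all : S_mom := s_mom s_lin s_hole nl_all peel_all (s_khin s_lin)

theorem grow_all : S_grow := s_grow s_lin s_hole nl_all peel_all mom_all

theorem tw_all : S_tw := s_tw s_lin s_hole (s_naw mixW_all) peel_all grow_all

theorem k3_all : S_k3 := s_k3 s_hole nl_all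

theorem k3s_all : S_k3s := s_k3s k3_all

theorem m0g_all : S_m0g := s_m0g s_lin sw_all s_abs4 s_scr bk_all

theorem m0_all : S_m0 := s_m0 s_lin sw_all tw_all m0g_all

theorem pt_all : S_pt := s_pt s_lin sw_all tw_all m0g_all

theorem tvb_all : S_tvb := s_tvb bk_all

theorem tvq_all : S_tvq := s_tvq s_lin m0_all tvb_all

theorem l_mb_all : Wick.L_mb := l_mb s_lin sw_all tw_all

theorem l_m0_all : Wick.L_m0 := l_m0 m0_all

theorem l_mix_all : Wick.L_mix := l_mix s_lin s_scr bk_all m0_all tvq_all

theorem l_var_all : Wick.L_var := App.l_var (App.a2 a1_all push_all)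

theorem tvi_all : Nu.TVI := nu_tvi tvb_all

theorem vsub_all : Nu.VSub := nu_vsub pt_all

theorem m2_all : Nu.M2 := nu_m2 m0_all

theorem levMu_all : Seal.LevMu := levMu sw_all s_scr bk_all k3s_all

theorem levDob_all : Seal.LevDob := levDob sw_all k3s_all

theorem scrn_all : Seal.Scrn := scrn s_scr bk_all

theorem tvm_all : Seal.Tvm := tvm s_scr bk_all tvb_all

theorem dec_all : Seal.Dec := dec s_lin s_scr bk_all m0_all

theorem m4Mu_all : Seal.M4Mu := m4Mu m0_all

theorem m4Dob_all : Seal.M4Dob := m4Dob s_lin sw_all mom_all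

end Vale.Agent.P153.App2
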