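import Vale.Agent.P153.App2.Stm
import Vale.Agent.P153.Wick.Stm
import Vale.Agent.P153.Nu.Stm

/-! P153, module App2: mixing outputs. -/

open Set Filter Topology

noncomputable section
namespace Vale.Agent.P153.App2

open App

theorem outt_ev (x : V) (R : ℕ) : ∀ᶠ N in atTop, hex x R ⊆ hex 0 N :=
  (eventually_ge_atTop (nrm (x - 0) + R)).mono fun _ h => hex_subset h

theorem outt_dm (x : V) (N : ℕ) : Dm (hex x N) := ⟨hex_finite x N, cnn_hex_compl x N⟩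

theorem outt_bk (N : ℕ) : Bk (Seal.mu N) (hex 0 N) 2 := ⟨outt_dm 0 N, Or.inl ⟨rfl, rfl⟩⟩

theorem outt_dep {f : Cfg → ℝ} {A B : Set V} (h : DepOn f A) (s : A ⊆ B) : DepOn f B :=
  fun H K e => h H K fun x hx => e x (s hx)

theorem outt_sqrt {p q δ Q : ℝ} (h1 : p ≤ δ ^ 2) (h2 : q ≤ Q ^ 2) (d : 0 ≤ δ) (e : 0 ≤ Q) :
    √p * √q ≤ δ * Q :=
  mul_le_mul (Real.sqrt_le_iff.2 ⟨d, h1⟩) (Real.sqrt_le_iff.2 ⟨e, h2⟩) (Real.sqrt_nonneg _) d

theorem nu_tvi (h : S_tvb) : Nu.TVI := by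
  intro r ε hε
  obtain ⟨M, -, h⟩ := h ε hε
  exact ⟨M * (r + 1), fun a b N N' h1 h2 f hf => h (r + 1) 0 _ _ f (by omega) (outt_dm _ _)
    (outt_dm _ _) h1 h2 (outt_dep hf.1 (hex_mono (by omega))) hf.2.1 hf.2.2⟩

theorem scrn (hc : S_scr) (hb : S_bk) : Seal.Scrn := by
  obtain ⟨M, hM, h⟩ := hb.eps (1 / 2) (by norm_num)
  refine ⟨3 * M, fun R hR x => (outt_ev x (3 * M * R + 1)).mono fun N hN f a a0 f0 h1 h2 h3 => ?_⟩
  have e : M * (R + 2) ≤ 3 * M * R := by nlinarith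
  have k := hc.ge (Seal.mu N) 2 x (R + 2) (3 * M * R) f a (hb.good _ _ _ (outt_bk N))
    (hb.free _ _ _ x _ (outt_bk N) hN) ((Nat.le_mul_of_pos_left _ hM).trans e)
    (outt_dep h1 (hex_mono (by omega))) f0 a0 fun W k s => by
      rw [Ex_free_inv4 (k := 0) h2 W (by have := s.2.2.2; omega)]
      exact h3 W s.2.1 s.2.2.1
  have p := h _ _ 2 x (R + 2) (3 * M * R) (outt_bk N) ((hex_mono (by omega)).trans hN)
    (by omega) e
  nlinarith

theorem tvm (hc : S_scr) (hb : S_bk) (h : S_tvb) : Seal.Tvm := by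
  intro e he
  obtain ⟨M₁, m1, h⟩ := h (e / 8) (by positivity)
  obtain ⟨M₂, m2, h'⟩ := hb.eps ((e / 16) ^ 2) (by positivity)
  refine ⟨M₂ * M₁, fun r hr x => (outt_ev x (M₂ * M₁ * r + 1)).mono
    fun N hN f g f1 g1 f2 f3 g2 => ?_⟩
  have gS := hb.good _ _ _ (outt_bk N)
  have r1 : r ≤ M₁ * r := Nat.le_mul_of_pos_left _ m1
  have r2 : M₂ * (M₁ * r) ≤ M₂ * M₁ * r := (mul_assoc _ _ _).ge
  set κ := Ex (free (hex x (M₁ * r)) 0) f with hκ
  have k1 : |κ| ≤ 1 := abs_Ex_le_of zero_le_one fun H _ => f1 H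
  have key : ∀ G : Cfg → ℝ, (∀ H, |G H| ≤ 1) → DepOn G (hex x (M₂ * M₁ * r))ᶜ →
      |Ex (Seal.mu N) (fun H => f H * G H) - κ * Ex (Seal.mu N) G| ≤ e / 8 + e / 16 * 2 := by
    intro G G1 G2
    refine (hc.abs _ 2 x (M₁ * r) _ f G κ (e / 8) gS (hb.free _ _ _ x _ (outt_bk N) hN)
      ((Nat.le_mul_of_pos_left _ m2).trans r2) (outt_dep f2 (hex_mono r1)) G2 G1 (by positivity)
      fun W k s => ?_).trans (add_le_add le_rfl (outt_sqrt (h' _ _ 2 x _ _ (outt_bk N)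
        ((hex_mono (by omega)).trans hN) (hr.trans r1) r2) (Ex_le gS fun H _ => ?_)
        (by positivity) (by norm_num)))
    · rw [Ex_free_inv4 (k := 0) f3 W (by have := s.2.2.2; omega)]
      exact h r x W _ f hr s.1 (outt_dm _ _) s.2.1 Subset.rfl f2 f3 fun H _ => f1 H
    · have := abs_le.1 (f1 H)
      have := abs_le.1 k1
      nlinarith
  have a1 := key g g1 g2
  have a2 := key (fun _ => 1) (fun _ => by simp) fun _ _ _ => rfl
  simp only [mul_one, Ex_const gS] at a2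
  have a3 : |Ex (Seal.mu N) g| ≤ 1 := abs_Ex_le_of zero_le_one fun H _ => g1 H
  have a4 : |(κ - Ex (Seal.mu N) f) * Ex (Seal.mu N) g| ≤ e / 8 + e / 16 * 2 := by
    rw [abs_mul, abs_sub_comm]
    exact (mul_le_of_le_one_right (abs_nonneg _) a3).trans a2
  have := abs_le.1 a1
  have := abs_le.1 a4
  rw [abs_le]
  constructor <;> nlinarith

theorem dec (hl : S_lin) (hc : S_scr) (hb : S_bk) (h0 : S_m0) : Seal.Dec := by
  intro e he
  obtain ⟨K, K0, hK⟩ := h0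
  obtain ⟨M, m, h⟩ := hb.eps ((e / (K + 1)) ^ 2) (by positivity)
  refine ⟨M, fun r hr x => (outt_ev x (M * r + 1)).mono fun N hN a G a0 a1 a2 G1 G2 => ?_⟩
  have gS := hb.good _ _ _ (outt_bk N)
  have sa : Sup a (hex x r) := fun y hy => a2 y (Finsupp.mem_support_iff.2 hy)
  have t : tot a = 0 := a0
  have k := hc.abs _ 2 x r _ (lin a) G 0 0 gS (hb.free _ _ _ x _ (outt_bk N) hN)
    (Nat.le_mul_of_pos_left _ m) (hl.dep a _ sa) G2 G1 le_rfl fun W k s => by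
      have := Ex_free_flip s.1.1 k (2 * k + 1) (outt_dep (hl.dep a _ sa) s.2.1)
      simp only [hl.flip, t, mul_zero, zero_sub, Ex_neg, show 2 * k + 1 - k - 1 = k by ring] at this
      rw [sub_zero, show Ex (free W k) (lin a) = 0 by linarith, abs_zero]
  simp only [zero_mul, sub_zero, zero_add] at k
  have r0 : (1 : ℝ) ≤ r := by exact_mod_cast hr
  have q : Ex (Seal.mu N) (fun H => lin a H ^ 2) ≤ ((K + 1) * (r : ℝ) ^ 2) ^ 2 := by
    have q1 := Ex_sq_le (Seal.mu N) fun H => lin a H ^ 2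
    simp only [← pow_mul] at q1
    have q2 := q1.trans (hK _ _ 2 x r a (outt_bk N) hr a1 sa t)
    have q3 : K * (r : ℝ) ^ 8 ≤ ((K + 1) * (r : ℝ) ^ 4) ^ 2 := by
      have : (0 : ℝ) ≤ (r : ℝ) ^ 8 := by positivity
      nlinarith [mul_nonneg (sq_nonneg K) this, mul_nonneg K0 this]
    have q4 := (abs_le_of_sq_le_sq' (q2.trans q3) (by positivity)).2
    have : (0 : ℝ) ≤ (r : ℝ) ^ 4 := by positivity
    nlinarith [mul_nonneg (sq_nonneg K) this, mul_nonneg K0 this]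
  refine k.trans ((outt_sqrt (h _ _ 2 x r _ (outt_bk N) ((hex_mono (by omega)).trans hN) hr le_rfl)
    q (by positivity) (by positivity)).trans (le_of_eq ?_))
  field_simp

theorem outt_prod {S : Set Cfg} {A B : Cfg → ℝ} {q : ℝ} (h1 : Ex S (fun H => A H ^ 4) ≤ q)
    (h2 : Ex S (fun H => B H ^ 4) ≤ q) : Ex S (fun H => (A H * B H) ^ 2) ≤ q := by
  refine (Ex_mono (g := fun H => (A H ^ 4 + B H ^ 4) / 2) fun H _ => ?_).trans ?_
  · nlinarith [sq_nonneg (A H ^ 2 - B H ^ 2)]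
  · rw [Ex_div, Ex_add]; linarith

theorem outt_lin (a : V →₀ ℝ) (x : V) (H : Cfg) :
    lin (Finsupp.equivMapDomain (tr x) a) H = lin a (H ∘ tr x) :=
  Finsupp.sum_equivMapDomain _ _ _

theorem outt_tr {a : V →₀ ℝ} {N : ℕ} (h : Wick.B1 a 0 N) (t : Wick.tot a = 0) (x : V) :
    (∀ y, |Finsupp.equivMapDomain (tr x) a y| ≤ 1) ∧
      Sup (Finsupp.equivMapDomain (tr x) a) (hex x N) ∧
      tot (Finsupp.equivMapDomain (tr x) a) = 0 := by
  refine ⟨fun y => h.1 _, fun y hy => ?_, (Finsupp.sum_equivMapDomain _ _ _).trans t⟩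
  have : nrm (y + -x - 0) ≤ N := h.2 _ hy
  rwa [sub_zero, ← sub_eq_add_neg] at this

theorem outt_move (x : V) (n : ℕ) (F : Cfg → ℝ) :
    Ex (free (hex x n) 0) (fun H => F (H ∘ tr x)) = Ex (free (hex 0 n) 0) F := by
  have b := bij_free (isSym_tr x) (hex 0 n) 0 0
  rw [(isSym_tr x).hex, show tr x 0 = x from zero_add x, add_zero] at b
  rw [← Ex_bij b]
  refine Ex_congr fun H _ => congrArg F (funext fun y => ?_)
  simp [hact]

theorem l_mix (hl : S_lin) (hc : S_scr) (hb : S_bk) (h0 : S_m0) (h : S_tvq) : Wick.L_mix := by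
  refine ⟨fun a b => limUnder atTop fun n : ℕ =>
    Ex (free (hex 0 n) 0) fun H => lin a H * lin b H, fun L ε hε => ?_⟩
  obtain ⟨K, K0, hK⟩ := h0
  obtain ⟨M₁, m1, h1⟩ := h (ε / 2) (by positivity)
  obtain ⟨M₂, m2, h2⟩ := hb.eps ((ε / (4 * (K + 1))) ^ 2) (by positivity)
  refine ⟨M₂ * M₁, fun F S x N R a b G dF hN hR sF _ ha hb' ta tb hG => ?_⟩
  have N0 : (0 : ℝ) < N := by exact_mod_cast hN
  have cs : CauchySeq fun n : ℕ => Ex (free (hex 0 n) 0) fun H => lin a H * lin b H := by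
    refine Metric.cauchySeq_iff.2 fun e he => ?_
    obtain ⟨M, -, k⟩ := h (e / 2 / (N : ℝ) ^ 4) (by positivity)
    refine ⟨M * N, fun m hm n hn => ?_⟩
    refine (k N 0 _ _ a b hN (outt_dm _ _) (outt_dm _ _) (hex_mono hm) (hex_mono hn) ha.1 hb'.1
      ha.2 hb'.2 ta tb).trans_lt ?_
    rw [div_mul_cancel₀ _ (by positivity)]
    linarith
  have tl := cs.tendsto_limUnder
  set κ := limUnder atTop fun n : ℕ => Ex (free (hex 0 n) 0) fun H => lin a H * lin b H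
  obtain ⟨a1, a2, a3⟩ := outt_tr ha ta x
  obtain ⟨b1, b2, b3⟩ := outt_tr hb' tb x
  have bk : Bk (dob F S) F 1 := ⟨dF, Or.inr ⟨S, rfl, rfl⟩⟩
  have gS := good_dob dF.1 S
  have r1 : N ≤ M₁ * N := Nat.le_mul_of_pos_left _ m1
  have r2 : M₂ * (M₁ * N) ≤ M₂ * M₁ * N := (mul_assoc _ _ _).ge
  have s1 : hex x (M₂ * M₁ * N) ⊆ F := (hex_mono hR).trans sF
  have k2 : κ ^ 2 ≤ K * (N : ℝ) ^ 8 := le_of_tendsto' (tl.pow 2) fun n =>
    (Ex_sq_le _ _).trans (outt_prod (hK _ _ 2 0 N a (outt_bk n) hN ha.1 ha.2 ta)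
      (hK _ _ 2 0 N b (outt_bk n) hN hb'.1 hb'.2 tb))
  simp only [← outt_lin]
  refine (hc.abs _ 1 x (M₁ * N) _ _ G κ (ε / 2 * (N : ℝ) ^ 4) gS ((freeIn_dob F S).mono s1)
    ((Nat.le_mul_of_pos_left _ m2).trans r2) (fun H H' e => ?_) hG.1 hG.2 (by positivity)
    fun W k s => ?_).trans ((add_le_add le_rfl (outt_sqrt (Q := 2 * (K + 1) * (N : ℝ) ^ 4)
      (h2 _ _ 1 x _ _ bk s1 (hN.trans r1) r2) ?_ (by positivity) (by positivity))).trans
        (le_of_eq ?_))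
  · rw [outt_dep (hl.dep _ _ a2) (hex_mono r1) H H' e, outt_dep (hl.dep _ _ b2) (hex_mono r1) H H' e]
  · have e := Ex_free_shift W 0 k fun H => lin (Finsupp.equivMapDomain (tr x) a) H *
      lin (Finsupp.equivMapDomain (tr x) b) H
    simp only [hl.shift, a3, b3, mul_zero, add_zero, zero_add] at e
    rw [← e]
    refine le_of_tendsto (tl.const_sub _).abs
      ((eventually_ge_atTop (M₁ * N)).mono fun n hn => ?_)
    have q := h1 N x W _ _ _ hN s.1 (outt_dm x n) s.2.1 (hex_mono hn) a1 b1 a2 b2 a3 b3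
    rw [← outt_move x n]
    simpa only [← outt_lin] using q
  · have q := outt_prod (hK _ _ 1 x N _ bk hN a1 a2 a3) (hK _ _ 1 x N _ bk hN b1 b2 b3)
    refine (Ex_mono (g := fun H => 2 * (lin (Finsupp.equivMapDomain (tr x) a) H *
      lin (Finsupp.equivMapDomain (tr x) b) H) ^ 2 + 2 * κ ^ 2) fun H _ => ?_).trans ?_
    · nlinarith [sq_nonneg (lin (Finsupp.equivMapDomain (tr x) a) H *
        lin (Finsupp.equivMapDomain (tr x) b) H + κ)]
    · rw [Ex_add, Ex_mul_left, Ex_const gS]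
      have : (0 : ℝ) ≤ (N : ℝ) ^ 8 := by positivity
      nlinarith [mul_nonneg (sq_nonneg K) this, mul_nonneg K0 this]
  · field_simp
    ring

end Vale.Agent.P153.App2
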